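import Vale.Agent.P166.Var

/-!
One step of the chain on the orthogonal group moves a bilinear form in two configurations little.
-/

noncomputable section

open MeasureTheory Matrix

namespace Vale.Agent.P166.Haar2.M6

variable {N : ℕ}

/-- The quantity dominating the squared change of a bilinear form in one step. -/
def dom2 (C : ℝ) (k : Fin N) (lam : Fin N → ℝ) (U g : OG N) (s t : Fin N → Bool) : ℝ :=
  (1 + act g (spin s) k ^ 2) *
    (act g (Jv lam U (spin t)) k ^ 2 + Jv lam U (spin t) k ^ 2 +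
      C ^ 2 * (1 + act g (spin s) k ^ 2))

lemma dom2_nonneg (C : ℝ) (k : Fin N) (lam : Fin N → ℝ) (U g : OG N) (s t : Fin N → Bool) :
    0 ≤ dom2 C k lam U g s t := by
  unfold dom2; positivity

lemma dom_eq (C : ℝ) (k : Fin N) (lam : Fin N → ℝ) (U g : OG N) (s : Fin N → Bool) :
    dom C k lam U g s = 10000000 * dom2 C k lam U g s s := rfl

lemma refl_move_le (w x y : Fin N → ℝ) (hw : 2 ≤ w ⬝ᵥ w) :
    |(act (refl w) x - x) ⬝ᵥ y| ≤ |w ⬝ᵥ x| * |w ⬝ᵥ y| := by
  have hpos : (0 : ℝ) < w ⬝ᵥ w := by linarith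
  rw [act_refl, sub_sub_cancel_left, neg_dotProduct, abs_neg, smul_dotProduct, smul_eq_mul,
    abs_mul, abs_div, abs_of_pos hpos, abs_mul, abs_two]
  refine mul_le_mul_of_nonneg_right ?_ (abs_nonneg _)
  rw [div_le_iff₀ hpos]
  nlinarith [abs_nonneg (w ⬝ᵥ x)]

lemma move_dot_le {lam : Fin N → ℝ} {C : ℝ} (hC : ∀ i, |lam i| ≤ C) (k : Fin N) (U g : OG N)
    (s t : Fin N → Bool) (M : OG N) (hM : M = house k g⁻¹ ∨ M = (house k g⁻¹)⁻¹) :
    |(act M (spin s) - spin s) ⬝ᵥ Jv lam U (spin t)| ≤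
      (|act g (spin s) k| + 13) *
        (|act g (Jv lam U (spin t)) k| + 3 * |Jv lam U (spin t) k|) := by
  set v := act g⁻¹ (ev k) with hv
  have hvv : v ⬝ᵥ v = 1 := by rw [hv, act_dot, ev_norm]
  have hvk := abs_le.1 (abs_entry_le hvv k)
  rw [← col_dot k g (spin s), ← col_dot k g (Jv lam U (spin t))]
  set a := v ⬝ᵥ spin s
  set b := v ⬝ᵥ Jv lam U (spin t)
  set c := Jv lam U (spin t) k with hc
  have hflip : |(act (refl (ev k)) (spin s) - spin s) ⬝ᵥ Jv lam U (spin t)| = 2 * |c| := by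
    rw [act_refl, ev_norm, ev_dot, div_one, sub_sub_cancel_left, neg_dotProduct, abs_neg,
      smul_dotProduct, ev_dot, smul_eq_mul, abs_mul, abs_mul, spin_abs, abs_two, mul_one]
  have good : ∀ c0 : ℝ, |c0| ≤ 3 → 2 ≤ (v + c0 • ev k) ⬝ᵥ (v + c0 • ev k) →
      |(act (refl (v + c0 • ev k)) (spin s) - spin s) ⬝ᵥ Jv lam U (spin t)| ≤
          (|a| + 13) * (|b| + 3 * |c|) ∧
      |(act (refl (v + c0 • ev k) * refl (ev k)) (spin s) - spin s) ⬝ᵥ Jv lam U (spin t)| ≤
          (|a| + 13) * (|b| + 3 * |c|) := by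
    intro c0 hc0 hw
    obtain ⟨b1, b2, -, -⟩ := cross_bound hC U k v hvv c0 hc0 s
    obtain ⟨-, -, b3, -⟩ := cross_bound hC U k v hvv c0 hc0 t
    constructor
    · refine (refl_move_le _ _ _ hw).trans (mul_le_mul ?_ b3 (abs_nonneg _) (by positivity))
      linarith
    · rw [act_mul]
      set y := act (refl (ev k)) (spin s)
      have e : act (refl (v + c0 • ev k)) y - spin s =
          (act (refl (v + c0 • ev k)) y - y) + (y - spin s) := by abel
      rw [e, add_dotProduct]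
      refine (abs_add_le _ _).trans ?_
      have h1 := (refl_move_le (v + c0 • ev k) y (Jv lam U (spin t)) hw).trans
        (mul_le_mul b2 b3 (abs_nonneg _) (by positivity))
      rw [hflip]
      nlinarith [h1, abs_nonneg b, abs_nonneg c]
  have hnorm : ∀ c0 : ℝ, (v + c0 • ev k) ⬝ᵥ (v + c0 • ev k) = 1 + 2 * c0 * v k + c0 ^ 2 := by
    intro c0
    rw [add_dotProduct, dotProduct_add, dotProduct_add, dotProduct_smul, smul_dotProduct,
      smul_dotProduct, dotProduct_smul, hvv, dot_ev, ev_dot, ev_norm]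
    simp only [smul_eq_mul]; ring
  by_cases hneg : v k ≤ 0
  · have hH : house k g⁻¹ = refl (v + (-1 : ℝ) • ev k) := by
      rw [house, if_pos hneg]
      rw [show ev k - v = -(v + (-1 : ℝ) • ev k) by funext i; simp; ring, refl_neg]
    have hMe : M = refl (v + (-1 : ℝ) • ev k) := by
      rcases hM with h | h
      · rw [h, hH]
      · rw [h, hH, refl_inv]
    rw [hMe]
    exact (good (-1) (by norm_num) (by rw [hnorm]; linarith)).1
  · have hH : house k g⁻¹ = refl (v + (1 : ℝ) • ev k) * refl (ev k) := by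
      rw [house, if_neg hneg, one_smul, add_comm v]
    rcases hM with h | h
    · rw [h, hH]
      exact (good 1 (by norm_num) (by rw [hnorm]; linarith [not_le.1 hneg])).2
    · rw [h, hH, _root_.mul_inv_rev, refl_inv, refl_inv, refl_act_orth]
      have e : act (refl (ev k)) (v + (1 : ℝ) • ev k) = v + (-1 - 2 * v k) • ev k := by
        rw [act_refl, ev_norm, ev_dot]
        funext i
        simp [ev]
        ring
      rw [e]
      refine (good (-1 - 2 * v k) (abs_le.2 ⟨by linarith, by linarith⟩) ?_).2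
      rw [hnorm]
      linarith [not_le.1 hneg]

lemma move_dot_sq_le {lam : Fin N → ℝ} {C : ℝ} (hC : ∀ i, |lam i| ≤ C) (k : Fin N) (U g : OG N)
    (s t : Fin N → Bool) (M : OG N) (hM : M = house k g⁻¹ ∨ M = (house k g⁻¹)⁻¹) :
    ((act M (spin s) - spin s) ⬝ᵥ Jv lam U (spin t)) ^ 2 ≤ 3380 * dom2 C k lam U g s t := by
  set a := act g (spin s) k
  set b := act g (Jv lam U (spin t)) k
  set c := Jv lam U (spin t) k
  rw [← sq_abs]
  refine (pow_le_pow_left₀ (abs_nonneg _) (move_dot_le hC k U g s t M hM) 2).trans ?_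
  have h1 : (|a| + 13) ^ 2 ≤ 338 * (1 + a ^ 2) := by
    nlinarith [sq_nonneg (|a| - 13), sq_abs a]
  have h2 : (|b| + 3 * |c|) ^ 2 ≤ 10 * (b ^ 2 + c ^ 2) := by
    nlinarith [sq_nonneg (3 * |b| - |c|), sq_abs b, sq_abs c]
  rw [mul_pow]
  refine (mul_le_mul h1 h2 (sq_nonneg _) (by positivity)).trans ?_
  show 338 * (1 + a ^ 2) * (10 * (b ^ 2 + c ^ 2)) ≤
    3380 * ((1 + a ^ 2) * (b ^ 2 + c ^ 2 + C ^ 2 * (1 + a ^ 2)))
  nlinarith [mul_nonneg (sq_nonneg C) (sq_nonneg (1 + a ^ 2))]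

lemma continuous_dom2 (C : ℝ) (k : Fin N) (lam : Fin N → ℝ) (s t : Fin N → Bool) :
    Continuous fun p : OG N × OG N => dom2 C k lam p.1 p.2 s t := by
  unfold dom2
  have h1 : Continuous fun p : OG N × OG N => act p.2 (spin s) k :=
    (continuous_apply k).comp ((continuous_act _).comp continuous_snd)
  have h2 : Continuous fun p : OG N × OG N => Jv lam p.1 (spin t) :=
    (continuous_Jv lam _).comp continuous_fst
  have h3 : Continuous fun p : OG N × OG N => act p.2 (Jv lam p.1 (spin t)) k :=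
    (continuous_apply k).comp (continuous_act2 continuous_snd h2)
  exact (continuous_const.add (h1.pow 2)).mul
    (((h3.pow 2).add (((continuous_apply k).comp h2).pow 2)).add
      (continuous_const.mul (continuous_const.add (h1.pow 2))))

lemma continuous_dom2_right (C : ℝ) (k : Fin N) (lam : Fin N → ℝ) (U : OG N)
    (s t : Fin N → Bool) : Continuous fun g : OG N => dom2 C k lam U g s t :=
  (continuous_dom2 C k lam s t).comp (Continuous.prodMk_right U)

lemma dom2_mean_le {lam : Fin N → ℝ} {C : ℝ} (hC : ∀ i, |lam i| ≤ C) (k : Fin N) (U : OG N)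
    (s t : Fin N → Bool) :
    ∫ g, dom2 C k lam U g s t ∂(mk N (k.val + 1)) ≤
      (2 + 3 * C ^ 4 + 8 * C ^ 2) * ((N : ℝ) / ((k.val : ℝ) + 1)) +
        3 * Jv lam U (spin t) k ^ 2 := by
  set r := (N : ℝ) / ((k.val : ℝ) + 1) with hr
  have hN : ((k.val : ℝ) + 1) ≤ N := by exact_mod_cast k.isLt
  have hr1 : 1 ≤ r := by
    rw [hr, le_div_iff₀ (by positivity), one_mul]; exact hN
  have hr0 : 0 < r := lt_of_lt_of_le one_pos hr1
  set A := fun g : OG N => act g (spin s) k with hA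
  set B := fun g : OG N => act g (Jv lam U (spin t)) k with hB
  set c := Jv lam U (spin t) k
  have hcA : Continuous A := (continuous_apply k).comp (continuous_act _)
  have hcB : Continuous B := (continuous_apply k).comp (continuous_act _)
  have hpt : ∀ g, dom2 C k lam U g s t ≤
      (r / 2 + 3 * c ^ 2 / 2 + 2 * C ^ 2) + (r / 2 + c ^ 2 / 2 + 2 * C ^ 2) * A g ^ 4 +
        B g ^ 4 / r := by
    intro g
    have e1 : B g ^ 2 ≤ (r + B g ^ 4 / r) / 2 := by
      have h := div_nonneg (sq_nonneg (r - B g ^ 2)) hr0.le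
      have e : (r - B g ^ 2) ^ 2 / r = r - 2 * B g ^ 2 + B g ^ 4 / r := by field_simp; ring
      rw [e] at h; linarith
    have e2 : A g ^ 2 * B g ^ 2 ≤ (r * A g ^ 4 + B g ^ 4 / r) / 2 := by
      have h := div_nonneg (sq_nonneg (r * A g ^ 2 - B g ^ 2)) hr0.le
      have e : (r * A g ^ 2 - B g ^ 2) ^ 2 / r =
          r * A g ^ 4 - 2 * (A g ^ 2 * B g ^ 2) + B g ^ 4 / r := by field_simp; ring
      rw [e] at h; linarith
    have e3 : A g ^ 2 ≤ (1 + A g ^ 4) / 2 := by nlinarith [sq_nonneg (A g ^ 2 - 1)]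
    change (1 + A g ^ 2) * (B g ^ 2 + c ^ 2 + C ^ 2 * (1 + A g ^ 2)) ≤ _
    nlinarith [mul_le_mul_of_nonneg_left e3 (sq_nonneg c),
      mul_le_mul_of_nonneg_left e3 (sq_nonneg C)]
  have iA : Integrable (fun g => A g ^ 4) (mk N (k.val + 1)) := integrable_cont (hcA.pow 4)
  have iB : Integrable (fun g => B g ^ 4 / r) (mk N (k.val + 1)) :=
    integrable_cont ((hcB.pow 4).div_const r)
  refine (integral_mono (integrable_cont (continuous_dom2_right C k lam U s t))
    (((integrable_const _).add (iA.const_mul _)).add iB) hpt).trans ?_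
  simp only [Pi.add_apply]
  rw [integral_add (f := fun g => r / 2 + 3 * c ^ 2 / 2 + 2 * C ^ 2 +
      (r / 2 + c ^ 2 / 2 + 2 * C ^ 2) * A g ^ 4) ((integrable_const _).add (iA.const_mul _)) iB,
    integral_add (integrable_const _) (iA.const_mul _), integral_const_mul, integral_div,
    integral_const]
  simp only [probReal_univ, smul_eq_mul, one_mul]
  have hAm : ∫ g, A g ^ 4 ∂(mk N (k.val + 1)) ≤ 3 := fourth_spin k s
  have hBm : (∫ g, B g ^ 4 ∂(mk N (k.val + 1))) / r ≤ 3 * C ^ 4 * r := by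
    rw [div_le_iff₀ hr0]
    refine (fourth_field k hC U t).trans (le_of_eq ?_)
    rw [hr]; field_simp
  have hco : 0 ≤ r / 2 + c ^ 2 / 2 + 2 * C ^ 2 := by positivity
  nlinarith [mul_le_mul_of_nonneg_left hAm hco, mul_le_mul_of_nonneg_left hr1 (sq_nonneg C)]

lemma sum_field_sq_le {lam : Fin N → ℝ} {C : ℝ} (hC : ∀ i, |lam i| ≤ C) (U : OG N)
    (t : Fin N → Bool) : ∑ k, Jv lam U (spin t) k ^ 2 ≤ C ^ 2 * N := by
  have h := Jv_norm_le hC U (spin t)
  rw [spin_dot] at h
  simpa [dotProduct, sq] using h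

end Vale.Agent.P166.Haar2.M6
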