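import Vale.Agent.P166.Haar2.Basic
import Vale.Agent.P157.Parisi.Perturb.Variance
import Vale.Agent.P166.Haar2.Dev.Cross

/-!
The covariance of the perturbation at two rotations, and the change it undergoes in one step.
-/

noncomputable section

open MeasureTheory Matrix
open scoped BigOperators

namespace Vale.Agent.P166.Haar2.M6

open Vale.Agent.P157.Parisi (Cube scale)

variable {N G L : ℕ}

/-- The coefficient of one coordinate of the perturbation in one configuration. -/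
def phi (P : Sys N G) (x : Fin L → ℝ) (U : OG N) (σ : Cube N) (c : PIdx G N L) : ℝ :=
  scale N * x c.1 * coef G c.1.val * P.feat U σ c

/-- The block overlap of configurations at two rotations. -/
def xov (P : Sys N G) (U V : OG N) (g : Fin G) (σ τ : Cube N) : ℝ :=
  (∑ i ∈ P.S g, rot U σ i * rot V τ i) / P.ν

/-- The indicator of a block. -/
def ind (P : Sys N G) (g : Fin G) : Fin N → ℝ := fun i => if i ∈ P.S g then 1 else 0

lemma abs_ind_le (P : Sys N G) (g : Fin G) (i : Fin N) : |ind P g i| ≤ 1 := by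
  unfold ind; split_ifs <;> simp

lemma abs_xov_le (P : Sys N G) (hν : (N : ℝ) ≤ P.ν) (U V : OG N) (g : Fin G) (σ τ : Cube N) :
    |xov P U V g σ τ| ≤ 1 := by
  have hN : (0 : ℝ) ≤ N := N.cast_nonneg
  rw [xov, abs_div, abs_of_nonneg (hN.trans hν)]
  refine div_le_one_of_le₀ (le_trans ?_ hν) (hN.trans hν)
  have h1 := sum_block_le U σ (P.S g)
  have h2 := sum_block_le V τ (P.S g)
  refine (Finset.abs_sum_le_sum_abs _ _).trans ?_
  have h3 : ∀ i ∈ P.S g, |rot U σ i * rot V τ i| ≤ rot U σ i ^ 2 / 2 + rot V τ i ^ 2 / 2 := by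
    intro i _
    rw [abs_le]
    constructor <;> nlinarith [sq_nonneg (rot U σ i - rot V τ i), sq_nonneg (rot U σ i + rot V τ i)]
  refine (Finset.sum_le_sum h3).trans ?_
  rw [Finset.sum_add_distrib, ← Finset.sum_div, ← Finset.sum_div]
  linarith

lemma sum_feat_mul (P : Sys N G) (hν : (N : ℝ) ≤ P.ν) (U V : OG N) (σ τ : Cube N) (i : Fin L) :
    ∑ v : Word G i.val → Fin N, P.feat U σ ⟨i, v⟩ * P.feat V τ ⟨i, v⟩ =
      ∏ g, xov P U V g σ τ ^ mexp G i.val g := by
  have hν0 : 0 ≤ P.ν := N.cast_nonneg.trans hν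
  simp only [Sys.feat, ← Finset.prod_mul_distrib]
  rw [← Fintype.prod_sum (κ := fun _ : Word G i.val => Fin N) (fun p j =>
    (if j ∈ P.S p.1 then rot U σ j / Real.sqrt P.ν else 0) *
      (if j ∈ P.S p.1 then rot V τ j / Real.sqrt P.ν else 0))]
  have e : ∀ p : Word G i.val, (∑ j : Fin N, (if j ∈ P.S p.1 then rot U σ j / Real.sqrt P.ν else 0) *
      (if j ∈ P.S p.1 then rot V τ j / Real.sqrt P.ν else 0)) = xov P U V p.1 σ τ := by
    intro p
    rw [xov, Finset.sum_div]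
    refine (Finset.sum_congr rfl fun j _ => ?_).trans (Fintype.sum_ite_mem (P.S p.1) _)
    split_ifs
    · rw [div_mul_div_comm, Real.mul_self_sqrt hν0]
    · rw [zero_mul]
  rw [Fintype.prod_congr _ _ e, Fintype.prod_sigma]
  simp

lemma abs_prod_sub_le {ι : Type*} (S : Finset ι) (a b : ι → ℝ) (ha : ∀ i, |a i| ≤ 1)
    (hb : ∀ i, |b i| ≤ 1) : |∏ i ∈ S, a i - ∏ i ∈ S, b i| ≤ ∑ i ∈ S, |a i - b i| := by
  classical
  induction S using Finset.induction_on with
  | empty => simp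
  | insert j T hj ih =>
    rw [Finset.prod_insert hj, Finset.prod_insert hj, Finset.sum_insert hj]
    have e : a j * ∏ i ∈ T, a i - b j * ∏ i ∈ T, b i =
        (a j - b j) * ∏ i ∈ T, a i + b j * (∏ i ∈ T, a i - ∏ i ∈ T, b i) := by ring
    rw [e]
    refine (abs_add_le _ _).trans (add_le_add ?_ ?_)
    · rw [abs_mul]
      refine mul_le_of_le_one_right (abs_nonneg _) ?_
      rw [Finset.abs_prod]
      exact Finset.prod_le_one (fun i _ => abs_nonneg _) fun i _ => ha i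
    · rw [abs_mul]
      exact (mul_le_of_le_one_left (abs_nonneg _) (hb j)).trans ih

lemma abs_monomial_sub_le (i : ℕ) (a b : Fin G → ℝ) (ha : ∀ g, |a g| ≤ 1) (hb : ∀ g, |b g| ≤ 1) :
    coef G i ^ 2 * |∏ g, a g ^ mexp G i g - ∏ g, b g ^ mexp G i g| ≤
      (1 / 4) ^ (i + 1) * ∑ g, |a g - b g| := by
  have e : ∀ c : Fin G → ℝ, ∏ g, c g ^ mexp G i g = ∏ p : Word G i, c p.1 := fun c => by
    rw [Fintype.prod_sigma]; simp
  rw [e a, e b]
  have h1 : |∏ p : Word G i, a p.1 - ∏ p : Word G i, b p.1| ≤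
      (∑ g, mexp G i g : ℕ) * ∑ g, |a g - b g| := by
    refine (abs_prod_sub_le Finset.univ (fun p : Word G i => a p.1) (fun p => b p.1)
      (fun p => ha p.1) fun p => hb p.1).trans ?_
    rw [Fintype.sum_sigma, Nat.cast_sum, Finset.sum_mul]
    refine Finset.sum_le_sum fun g _ => ?_
    simp only [Finset.sum_const, Finset.card_univ, Fintype.card_fin, nsmul_eq_mul]
    exact mul_le_mul_of_nonneg_left
      (Finset.single_le_sum (f := fun g => |a g - b g|) (fun _ _ => abs_nonneg _)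
        (Finset.mem_univ g)) (Nat.cast_nonneg _)
  refine (mul_le_mul_of_nonneg_left h1 (sq_nonneg _)).trans ?_
  rw [← mul_assoc]
  refine mul_le_mul_of_nonneg_right ?_ (Finset.sum_nonneg fun _ _ => abs_nonneg _)
  set E : ℝ := ((∑ g, mexp G i g : ℕ) : ℝ) with hE
  have h0 : 0 ≤ E := Nat.cast_nonneg _
  have h2 : ((1 : ℝ) / 2) ^ (i + 1) * ((1 : ℝ) / 2) ^ (i + 1) = (1 / 4) ^ (i + 1) := by
    rw [← mul_pow]; norm_num
  rw [coef, ← hE, div_pow, sq ((1 / 2 : ℝ) ^ (i + 1)), h2, div_mul_eq_mul_div,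
    div_le_iff₀ (by positivity)]
  exact mul_le_mul_of_nonneg_left (by nlinarith) (by positivity)

lemma sum_phi_mul (P : Sys N G) (hν : (N : ℝ) ≤ P.ν) (x : Fin L → ℝ) (U V : OG N)
    (σ τ : Cube N) :
    ∑ c, phi P x U σ c * phi P x V τ c =
      ∑ i : Fin L, scale N ^ 2 * x i ^ 2 *
        (coef G i.val ^ 2 * ∏ g, xov P U V g σ τ ^ mexp G i.val g) := by
  rw [Fintype.sum_sigma]
  refine Finset.sum_congr rfl fun i _ => ?_
  rw [← sum_feat_mul (L := L) P hν, Finset.mul_sum, Finset.mul_sum]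
  exact Finset.sum_congr rfl fun v _ => by simp only [phi]; ring

lemma sum_phi_sq_le (P : Sys N G) (hν : (N : ℝ) ≤ P.ν) {C₀ : ℝ} (x : Fin L → ℝ)
    (hx : ∀ i, |x i| ≤ C₀) (U : OG N) (σ : Cube N) :
    ∑ c, phi P x U σ c ^ 2 ≤ C₀ ^ 2 * scale N ^ 2 := by
  simp only [sq (phi P x U σ _), sum_phi_mul P hν]
  have h : ∀ i : Fin L, scale N ^ 2 * x i ^ 2 *
      (coef G i.val ^ 2 * ∏ g, xov P U U g σ σ ^ mexp G i.val g) ≤
        scale N ^ 2 * C₀ ^ 2 * (1 / 4) ^ (i.val + 1) := by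
    intro i
    have hx2 : x i ^ 2 ≤ C₀ ^ 2 := by rw [← sq_abs]; exact pow_le_pow_left₀ (abs_nonneg _) (hx i) 2
    have hp : |∏ g, xov P U U g σ σ ^ mexp G i.val g| ≤ 1 := by
      rw [Finset.abs_prod]
      refine Finset.prod_le_one (fun _ _ => abs_nonneg _) fun g _ => ?_
      rw [abs_pow]
      exact pow_le_one₀ (abs_nonneg _) (abs_xov_le P hν U U g σ σ)
    have hc : coef G i.val ^ 2 ≤ (1 / 4 : ℝ) ^ (i.val + 1) := by
      have e : ((1 : ℝ) / 2) ^ (i.val + 1) * ((1 : ℝ) / 2) ^ (i.val + 1) =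
          (1 / 4) ^ (i.val + 1) := by rw [← mul_pow]; norm_num
      rw [coef, div_pow, sq ((1 / 2 : ℝ) ^ (i.val + 1)), e]
      exact div_le_self (by positivity)
        (one_le_pow₀ (le_add_of_nonneg_right (Nat.cast_nonneg _)))
    calc scale N ^ 2 * x i ^ 2 * (coef G i.val ^ 2 * ∏ g, xov P U U g σ σ ^ mexp G i.val g)
        ≤ scale N ^ 2 * x i ^ 2 * coef G i.val ^ 2 := by
          refine mul_le_mul_of_nonneg_left ?_ (by positivity)
          exact mul_le_of_le_one_right (sq_nonneg _) ((le_abs_self _).trans hp)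
      _ ≤ _ := by gcongr
  refine (Finset.sum_le_sum fun i _ => h i).trans ?_
  rw [← Finset.mul_sum]
  nlinarith [Vale.Agent.P157.Parisi.Perturb.sum_quarter_le L, sq_nonneg (scale N * C₀)]

lemma scale_sq_le (hN : 0 < N) : scale N ^ 2 ≤ N := by
  have h1 : (1 : ℝ) ≤ N := by exact_mod_cast hN
  have e : scale N ^ 2 = (N : ℝ) ^ (3 / 4 : ℝ) := by
    rw [scale, ← Real.rpow_natCast, ← Real.rpow_mul N.cast_nonneg]; norm_num
  rw [e]
  conv_rhs => rw [← Real.rpow_one (N : ℝ)]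
  exact Real.rpow_le_rpow_of_exponent_le h1 (by norm_num)

lemma xov_sub (P : Sys N G) (U M : OG N) (g : Fin G) (σ τ : Cube N) :
    xov P (U * M) U g σ τ - xov P U U g σ τ =
      (act M (spin σ) - spin σ) ⬝ᵥ Jv (ind P g) U (spin τ) / P.ν := by
  rw [xov, xov, ← sub_div, ← Finset.sum_sub_distrib, dot_Jv]
  congr 1
  refine ((Fintype.sum_ite_mem (P.S g) _).symm.trans (Finset.sum_congr rfl fun i _ => ?_))
  unfold ind rot
  split_ifs
  · rw [act_sub, act_mul, Pi.sub_apply]; ring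
  · simp

lemma cov_diff_le (P : Sys N G) (hN : 0 < N) (hν : (N : ℝ) ≤ P.ν) {C₀ : ℝ} (x : Fin L → ℝ)
    (hx : ∀ i, |x i| ≤ C₀) (U M : OG N) (σ τ : Cube N) :
    |∑ c, (phi P x U σ c - phi P x (U * M) σ c) * phi P x U τ c| ≤
      C₀ ^ 2 * ∑ g, |(act M (spin σ) - spin σ) ⬝ᵥ Jv (ind P g) U (spin τ)| := by
  simp only [sub_mul, Finset.sum_sub_distrib, sum_phi_mul P hν]
  rw [← Finset.sum_sub_distrib]
  simp only [← mul_sub]
  refine (Finset.abs_sum_le_sum_abs _ _).trans ?_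
  set Q := ∑ g, |(act M (spin σ) - spin σ) ⬝ᵥ Jv (ind P g) U (spin τ)| with hQ
  have hν0 : 0 < P.ν := lt_of_lt_of_le (by exact_mod_cast hN) hν
  have hQ0 : 0 ≤ Q := Finset.sum_nonneg fun _ _ => abs_nonneg _
  have hd : ∑ g, |xov P U U g σ τ - xov P (U * M) U g σ τ| = Q / P.ν := by
    rw [hQ, Finset.sum_div]
    refine Finset.sum_congr rfl fun g _ => ?_
    rw [abs_sub_comm, xov_sub, abs_div, abs_of_pos hν0]
  have h : ∀ i : Fin L, |scale N ^ 2 * x i ^ 2 *
      (coef G i.val ^ 2 * (∏ g, xov P U U g σ τ ^ mexp G i.val g -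
        ∏ g, xov P (U * M) U g σ τ ^ mexp G i.val g))| ≤
      C₀ ^ 2 * (1 / 4) ^ (i.val + 1) * Q := by
    intro i
    have hm := abs_monomial_sub_le i.val _ _ (fun g => abs_xov_le P hν U U g σ τ)
      fun g => abs_xov_le P hν (U * M) U g σ τ
    rw [hd] at hm
    have hx2 : x i ^ 2 ≤ C₀ ^ 2 := by rw [← sq_abs]; exact pow_le_pow_left₀ (abs_nonneg _) (hx i) 2
    rw [abs_mul, abs_mul (coef G i.val ^ 2), abs_of_nonneg (sq_nonneg (coef G i.val)),
      abs_of_nonneg (by positivity : (0 : ℝ) ≤ scale N ^ 2 * x i ^ 2)]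
    calc _ ≤ scale N ^ 2 * C₀ ^ 2 * ((1 / 4) ^ (i.val + 1) * (Q / P.ν)) := by
          refine mul_le_mul ?_ hm (by positivity) (by positivity)
          gcongr
      _ = C₀ ^ 2 * (1 / 4) ^ (i.val + 1) * Q * (scale N ^ 2 / P.ν) := by ring
      _ ≤ _ := mul_le_of_le_one_right (by positivity)
          (div_le_one_of_le₀ ((scale_sq_le hN).trans hν) hν0.le)
  refine (Finset.sum_le_sum fun i _ => h i).trans ?_
  rw [← Finset.sum_mul, ← Finset.mul_sum]
  refine mul_le_mul_of_nonneg_right (mul_le_of_le_one_right (sq_nonneg _) ?_) hQ0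
  linarith [Vale.Agent.P157.Parisi.Perturb.sum_quarter_le L]

end Vale.Agent.P166.Haar2.M6
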