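import Vale.Agent.P166.Haar2.Dev.Step
import Vale.Agent.P157.Parisi.Sphere.Perturb.GaussVar
import Vale.Agent.P166.Haar2.SlotDev.Main

/-!
Concentration of the free energy of perturbed systems in Haar position over fixed weights.
-/

noncomputable section

open MeasureTheory ProbabilityTheory Matrix
open scoped BigOperators

namespace Vale.Agent.P166.Haar2

open Vale.Agent.P157 (gam)
open Vale.Agent.P157.Parisi (Cube scale)
open Vale.Agent.P168.Limit (logZ)
open Vale.Agent.P168.Limit.SelfAvg (abs_logZ_sub_le' memLp_logZ_field)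

namespace M6

variable {N G L : ℕ}

/-- The constant of the mean of the dominating quantity. -/
def momC (C : ℝ) : ℝ := 2 + 3 * C ^ 4 + 8 * C ^ 2

lemma momC_nonneg (C : ℝ) : 0 ≤ momC C := by unfold momC; positivity

lemma continuous_tot (P : Sys N G) (C : ℝ) (k : Fin N) (σ τ : Cube N) :
    Continuous fun p : OG N × OG N => tot P C k p.1 p.2 σ τ := by
  unfold tot
  exact (continuous_dom2 C k _ σ σ).add
    (continuous_finsetSum _ fun b _ => continuous_dom2 C k _ σ τ)

lemma measurable_bdU (P : Sys N G) (x : Fin L → ℝ) (w : Cube N → ℝ) (C : ℝ) (k : Fin N) :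
    Measurable fun p : OG N × OG N => bdU P x w C k p.1 p.2 :=
  Finset.measurable_sum _ fun σ _ => Finset.measurable_sum _ fun τ _ =>
    ((measurable_qU P x w σ τ).comp measurable_fst).mul (continuous_tot P C k σ τ).measurable

lemma exists_bdU_bound (P : Sys N G) (x : Fin L → ℝ) (w : Cube N → ℝ) (C : ℝ) (k : Fin N) :
    ∃ B, ∀ p : OG N × OG N, |bdU P x w C k p.1 p.2| ≤ B := by
  have hc : Continuous fun p : OG N × OG N => ∑ σ, ∑ τ, 2 * |tot P C k p.1 p.2 σ τ| :=
    continuous_finsetSum _ fun σ _ => continuous_finsetSum _ fun τ _ =>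
      continuous_const.mul (continuous_tot P C k σ τ).abs
  obtain ⟨B, hB⟩ := isCompact_univ.exists_bound_of_continuousOn hc.continuousOn
  refine ⟨B, fun p => le_trans ?_ ((le_abs_self _).trans (hB p (Set.mem_univ p)))⟩
  refine (Finset.abs_sum_le_sum_abs _ _).trans (Finset.sum_le_sum fun σ _ => ?_)
  refine (Finset.abs_sum_le_sum_abs _ _).trans (Finset.sum_le_sum fun τ _ => ?_)
  rw [abs_mul, abs_of_nonneg (qU_mem P x w p.1 σ τ).1]
  exact mul_le_mul_of_nonneg_right (qU_mem P x w p.1 σ τ).2 (abs_nonneg _)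

lemma tot_mean_le (P : Sys N G) {C : ℝ} (hlam : ∀ i, |P.lam i| ≤ C) (hC : 1 ≤ C) (k : Fin N)
    (U : OG N) (σ τ : Cube N) :
    ∫ g, tot P C k U g σ τ ∂(mk N (k.val + 1)) ≤
      (G + 1) * momC C * ((N : ℝ) / ((k.val : ℝ) + 1)) +
        3 * (Jv P.lam U (spin σ) k ^ 2 + ∑ b, Jv (ind P b) U (spin τ) k ^ 2) := by
  have hi : ∀ b, Integrable (fun g => dom2 C k (ind P b) U g σ τ) (mk N (k.val + 1)) :=
    fun b => integrable_cont (continuous_dom2_right C k _ U σ τ)
  unfold tot
  rw [integral_add (integrable_cont (continuous_dom2_right C k _ U σ σ))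
    (integrable_finsetSum _ fun b _ => hi b), integral_finsetSum _ fun b _ => hi b]
  refine (add_le_add (dom2_mean_le hlam k U σ σ) (Finset.sum_le_sum fun b _ =>
    dom2_mean_le (fun i => (abs_ind_le P b i).trans hC) k U σ τ)).trans (le_of_eq ?_)
  simp only [Finset.sum_add_distrib, Finset.sum_const, Finset.card_univ, Fintype.card_fin,
    nsmul_eq_mul, ← Finset.mul_sum, momC]
  ring

lemma sum_bdU_mean_le (P : Sys N G) {C : ℝ} (hlam : ∀ i, |P.lam i| ≤ C) (hC : 1 ≤ C)
    (x : Fin L → ℝ) (w : Cube N → ℝ) (U : OG N) :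
    ∑ k : Fin N, ∫ g, bdU P x w C k U g ∂(mk N (k.val + 1)) ≤
      2 * ((G + 1) * (momC C + 3 * C ^ 2)) * (N * (1 + Real.log N)) := by
  set R := (N : ℝ) * (1 + Real.log N) with hR
  have hlog : (0 : ℝ) ≤ Real.log N := Real.log_natCast_nonneg N
  have hh : ∑ k : Fin N, (N : ℝ) / ((k.val : ℝ) + 1) ≤ R := by
    simp only [div_eq_mul_inv, ← Finset.mul_sum]
    refine mul_le_mul_of_nonneg_left (le_trans (le_of_eq ?_) (harmonic_le_one_add_log N))
      N.cast_nonneg
    rw [harmonic, Fin.sum_univ_eq_sum_range (fun i : ℕ => ((i : ℝ) + 1)⁻¹) N]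
    push_cast
    rfl
  have hst : ∀ σ τ : Cube N, ∑ k : Fin N, ∫ g, tot P C k U g σ τ ∂(mk N (k.val + 1)) ≤
      (G + 1) * (momC C + 3 * C ^ 2) * R := by
    intro σ τ
    refine (Finset.sum_le_sum fun k _ => tot_mean_le P hlam hC k U σ τ).trans ?_
    rw [Finset.sum_add_distrib, ← Finset.mul_sum, ← Finset.mul_sum, Finset.sum_add_distrib,
      Finset.sum_comm]
    have h1 := sum_field_sq_le hlam U σ
    have h2 : ∑ b : Fin G, ∑ k, Jv (ind P b) U (spin τ) k ^ 2 ≤ G * (C ^ 2 * N) := by
      refine (Finset.sum_le_sum fun b _ =>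
        sum_field_sq_le (fun i => (abs_ind_le P b i).trans hC) U τ).trans (le_of_eq ?_)
      simp
    have h3 := mul_le_mul_of_nonneg_left hh
      (mul_nonneg (by positivity : (0 : ℝ) ≤ G + 1) (momC_nonneg C))
    have h4 : (N : ℝ) ≤ R := le_mul_of_one_le_right N.cast_nonneg (by linarith)
    nlinarith [mul_le_mul_of_nonneg_left h4 (by positivity : (0 : ℝ) ≤ ((G : ℝ) + 1) * C ^ 2)]
  have hq : ∀ k : Fin N, ∀ σ τ,
      Integrable (fun g => qU P x w U σ τ * tot P C k U g σ τ) (mk N (k.val + 1)) :=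
    fun k σ τ =>
      (integrable_cont ((continuous_tot P C k σ τ).comp (Continuous.prodMk_right U))).const_mul _
  simp only [bdU]
  simp only [fun k : Fin N => integral_finsetSum (μ := mk N (k.val + 1)) Finset.univ
    (fun σ _ => integrable_finsetSum Finset.univ fun τ _ => hq k σ τ)]
  simp only [fun (k : Fin N) (σ : Cube N) => integral_finsetSum (μ := mk N (k.val + 1))
    Finset.univ (fun τ _ => hq k σ τ), integral_const_mul]
  rw [Finset.sum_comm]
  refine (Finset.sum_le_sum fun σ _ => ?_ : _ ≤ ∑ σ, ∑ τ,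
    qU P x w U σ τ * ((G + 1) * (momC C + 3 * C ^ 2) * R)).trans_eq ?_
  · rw [Finset.sum_comm]
    refine Finset.sum_le_sum fun τ _ => ?_
    rw [← Finset.mul_sum]
    exact mul_le_mul_of_nonneg_left (hst σ τ) (qU_mem P x w U σ τ).1
  · simp only [← Finset.sum_mul, sum_qU]
    ring

lemma abs_logZ_hU_le (P : Sys N G) (x : Fin L → ℝ) (w : Cube N → ℝ) (U : OG N)
    (J : PIdx G N L → ℝ) :
    |logZ (hU P x w U J)| ≤ |logZ (fun _ : Cube N => (0 : ℝ))| +
      ((∑ σ, |w σ|) + SlotDev.ham0Bd P (scale N) x (U, J)) := by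
  have h := abs_logZ_sub_le' (fun _ : Cube N => (0 : ℝ)) (hU P x w U J)
    (c := (∑ σ, |w σ|) + SlotDev.ham0Bd P (scale N) x (U, J)) fun σ =>
      (abs_add_le _ _).trans (add_le_add
        (Finset.single_le_sum (f := fun τ => |w τ|) (fun _ _ => abs_nonneg _) (Finset.mem_univ σ))
        (SlotDev.abs_ham0_le P (scale N) x (U, J) σ))
  simp only [zero_add] at h
  linarith [abs_sub_abs_le_abs_sub (logZ (hU P x w U J)) (logZ fun _ : Cube N => (0 : ℝ))]

lemma continuous_fU (P : Sys N G) (x : Fin L → ℝ) (w : Cube N → ℝ) :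
    Continuous (fU P x w) := by
  refine continuous_of_dominated (fun U => (integrable_logZ_hU P x w U).aestronglyMeasurable)
    (fun U => ae_of_all _ fun J => ?_)
    (bound := fun J => |logZ (fun _ : Cube N => (0 : ℝ))| + ((∑ σ, |w σ|) +
      ((1 / 2 * ∑ i, |P.lam i| * N) +
        ∑ c, |J c| * (|scale N * x c.1 * coef G c.1.val| * featBd P c)))) ?_
    (ae_of_all _ fun J => ?_)
  · rw [Real.norm_eq_abs]
    exact abs_logZ_hU_le P x w U J
  · exact (integrable_const _).add ((integrable_const _).add ((integrable_const _).add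
      (integrable_finsetSum _ fun c _ =>
        (Vale.Agent.P168.Toolkit.integrable_eval_gaussPi c).abs.mul_const _)))
  · simp only [hU_eq]
    refine Continuous.log (continuous_finsetSum _ fun σ _ => Real.continuous_exp.comp ?_)
      fun U => (Vale.Agent.P168.Limit.sum_exp_pos _).ne'
    exact (continuous_const.add (continuous_const.mul (continuous_en _ σ))).add
      (continuous_finsetSum _ fun c _ =>
        (continuous_const.mul (continuous_feat P σ c)).mul continuous_const)

lemma integrable_phi_mean (Φ : OG N → OG N → ℝ) (hm : Measurable fun p : OG N × OG N => Φ p.1 p.2) {B : ℝ}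
    (hB : ∀ p : OG N × OG N, |Φ p.1 p.2| ≤ B) (k : Fin N) :
    Integrable (fun U => ∫ g, Φ U g ∂(mk N (k.val + 1))) (orthHaar N) := by
  exact integrable_of_abs_le
    hm.stronglyMeasurable.integral_prod_right'.measurable B
    fun U => abs_integral_le_of B fun g => hB (U, g)

lemma integral_phi_shift (Φ : OG N → OG N → ℝ) (hm : Measurable fun p : OG N × OG N => Φ p.1 p.2) {B : ℝ}
    (hB : ∀ p : OG N × OG N, |Φ p.1 p.2| ≤ B) (k : Fin N) :
    ∫ U, ∫ g, Φ (U * step k g) g ∂(mk N (k.val + 1)) ∂orthHaar N =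
      ∫ U, ∫ g, Φ U g ∂(mk N (k.val + 1)) ∂orthHaar N := by
  have hmV : Measurable fun p : OG N × OG N => Φ (p.1 * step k p.2) p.2 :=
    hm.comp ((measurable_fst.mul ((measurable_step k).comp measurable_snd)).prodMk measurable_snd)
  rw [integral_integral_swap (integrable_of_abs_le
      (f := Function.uncurry fun U g => Φ (U * step k g) g) hmV B
        fun p => hB (p.1 * step k p.2, p.2)),
    integral_integral_swap (integrable_of_abs_le
      (f := Function.uncurry fun U g => Φ U g) hm B hB)]
  exact integral_congr_ae (ae_of_all _ fun g =>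
    integral_mul_right_eq_self (μ := orthHaar N) (fun U => Φ U g) (step k g))

lemma step_le (Φ : OG N → OG N → ℝ) (hm : Measurable fun p : OG N × OG N => Φ p.1 p.2) {B : ℝ}
    (hB : ∀ p : OG N × OG N, |Φ p.1 p.2| ≤ B) (K : ℝ) (k : Fin N)
    (f : OG N → ℝ) (hc : Continuous f)
    (hd : ∀ U g, (f U - f (U * step k g)) ^ 2 ≤
      K * (Φ U g + Φ (U * step k g) g)) :
    ∫ U, ∫ g, (f U - f (U * step k g)) ^ 2 ∂(mk N (k.val + 1)) ∂orthHaar N ≤
      2 * K * ∫ U, ∫ g, Φ U g ∂(mk N (k.val + 1)) ∂orthHaar N := by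
  obtain ⟨Bf, hBf⟩ := exists_abs_bound hc
  have hmV : Measurable fun p : OG N × OG N => Φ (p.1 * step k p.2) p.2 :=
    hm.comp ((measurable_fst.mul ((measurable_step k).comp measurable_snd)).prodMk measurable_snd)
  have hmf := (measurable_jump_arg k hc).pow_const 2
  have hbf : ∀ U g : OG N, |(f U - f (U * step k g)) ^ 2| ≤ (2 * Bf) ^ 2 :=
    fun U g => by
      rw [abs_pow]
      exact pow_le_pow_left₀ (abs_nonneg _)
        ((abs_sub _ _).trans (by linarith [hBf U, hBf (U * step k g)])) 2
  have i0 : Integrable (fun U => ∫ g, (f U - f (U * step k g)) ^ 2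
      ∂(mk N (k.val + 1))) (orthHaar N) :=
    integrable_of_abs_le hmf.stronglyMeasurable.integral_prod_right'.measurable ((2 * Bf) ^ 2)
      fun U => abs_integral_le_of _ (hbf U)
  have i2 : Integrable (fun U => ∫ g, Φ (U * step k g) g ∂(mk N (k.val + 1)))
      (orthHaar N) :=
    integrable_of_abs_le hmV.stronglyMeasurable.integral_prod_right'.measurable B
      fun U => abs_integral_le_of B fun g => hB (U * step k g, g)
  have hshift := integral_phi_shift Φ hm hB k
  have hi := integrable_phi_mean Φ hm hB k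
  have hin : ∀ U, ∫ g, (f U - f (U * step k g)) ^ 2 ∂(mk N (k.val + 1)) ≤
      K * ((∫ g, Φ U g ∂(mk N (k.val + 1))) +
        ∫ g, Φ (U * step k g) g ∂(mk N (k.val + 1))) := fun U => by
    have j1 : Integrable (fun g => Φ U g) (mk N (k.val + 1)) :=
      integrable_of_abs_le (hm.comp measurable_prodMk_left) B fun g => hB (U, g)
    have j2 : Integrable (fun g => Φ (U * step k g) g) (mk N (k.val + 1)) :=
      integrable_of_abs_le (hmV.comp measurable_prodMk_left) B fun g => hB (U * step k g, g)
    rw [← integral_add j1 j2, ← integral_const_mul]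
    exact integral_mono (integrable_of_abs_le (hmf.comp measurable_prodMk_left) _ (hbf U))
      ((j1.add j2).const_mul K) fun g => hd U g
  refine (integral_mono i0 ((hi.add i2).const_mul K) hin).trans (le_of_eq ?_)
  simp only [Pi.add_apply]
  rw [integral_const_mul, integral_add hi i2, hshift]
  ring

theorem fU_variance_le (P : Sys N G) (hN : 0 < N) (hν : (N : ℝ) ≤ P.ν) {C₀ C : ℝ}
    (hlam : ∀ i, |P.lam i| ≤ C) (hC : 1 ≤ C) (x : Fin L → ℝ) (hx : ∀ i, |x i| ≤ C₀)
    (w : Cube N → ℝ) :
    ∫ U, (fU P x w U - ∫ V, fU P x w V ∂orthHaar N) ^ 2 ∂orthHaar N ≤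
      8 * (10000000 * (1 + G * C₀ ^ 4)) * ((G + 1) * (momC C + 3 * C ^ 2)) *
        (N * (1 + Real.log N)) := by
  have hc := continuous_fU P x w
  refine (variance_le_chain hc).trans ?_
  set K := 2 * (10000000 * (1 + (G : ℝ) * C₀ ^ 4)) with hK
  have hK0 : 0 ≤ K := by positivity
  choose B hB using exists_bdU_bound P x w C
  have hi := fun k => integrable_phi_mean _ (measurable_bdU P x w C k) (hB k) k
  refine (Finset.sum_le_sum fun k _ => step_le _ (measurable_bdU P x w C k) (hB k) K k _ hc
    fun U g => fU_diff_sq_le P hN hν hlam hC x hx w k U g).trans ?_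
  rw [← Finset.mul_sum, ← integral_finsetSum _ fun k _ => hi k]
  refine (mul_le_mul_of_nonneg_left (integral_mono (integrable_finsetSum _ fun k _ => hi k)
    (integrable_const _) fun U => sum_bdU_mean_le P hlam hC x w U) (by positivity)).trans
    (le_of_eq ?_)
  rw [integral_const, probReal_univ, one_smul, hK]
  ring

lemma abs_le_quad {a : ℝ} (ha : 0 < a) (h : ℝ) : |h| ≤ h ^ 2 / (2 * a) + a / 2 := by
  rw [div_add_div _ _ (by positivity) two_ne_zero, le_div_iff₀ (by positivity)]
  nlinarith [sq_nonneg (|h| - a), sq_abs h]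

lemma inner_dev_le (P : Sys N G) (hN : 0 < N) (hν : (N : ℝ) ≤ P.ν) {C₀ : ℝ} (x : Fin L → ℝ)
    (hx : ∀ i, |x i| ≤ C₀) (w : Cube N → ℝ) (U : OG N) :
    ∫ J, |logZ (hU P x w U J) - fU P x w U| ∂gam (PIdx G N L) ≤
      (C₀ ^ 2 + 1 / 2) * scale N := by
  have hs : 0 < scale N := Real.rpow_pos_of_pos (by exact_mod_cast hN) _
  have hmem : MemLp (fun J => logZ (hU P x w U J)) 2 (gam (PIdx G N L)) := by
    simp only [hU_eq]
    exact memLp_logZ_field _ _
  have hv : variance (fun J => logZ (hU P x w U J)) (gam (PIdx G N L)) ≤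
      2 * (C₀ ^ 2 * scale N ^ 2) := by
    simp only [hU_eq]
    exact Vale.Agent.P157.Parisi.Sphere.Perturb.field_variance_norm _ _ (by positivity)
      (sum_phi_sq_le P hν x hx U)
  rw [variance_eq_integral hmem.aestronglyMeasurable.aemeasurable] at hv
  have hd : MemLp (fun J => logZ (hU P x w U J) - fU P x w U) 2 (gam (PIdx G N L)) :=
    hmem.sub (memLp_const _)
  refine (integral_mono (hd.integrable one_le_two).abs
    ((hd.integrable_sq.div_const _).add (integrable_const _)) fun J => abs_le_quad hs _).trans ?_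
  simp only [Pi.add_apply]
  rw [integral_add (hd.integrable_sq.div_const _) (integrable_const _), integral_div,
    integral_const, probReal_univ, one_smul]
  refine (add_le_add (div_le_div_of_nonneg_right hv (by positivity)) le_rfl).trans (le_of_eq ?_)
  field_simp

end M6

open M6

/-- The free energy over fixed weights concentrates. -/
theorem devFixed (G : ℕ) (C₀ : ℝ) :
    ∃ C : ℝ, ∀ (N L : ℕ) (P : Sys N G), 0 < N → (∀ i, |P.lam i| ≤ C₀) → (N : ℝ) ≤ P.ν →
      ∀ x : Fin L → ℝ, (∀ i, |x i| ≤ C₀) → ∀ B : RBase N,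
        (∀ ω ω' σ, B.lw ω σ = B.lw ω' σ) → P.dev (scale N) x B ≤ C * devRate N := by
  set C₁ := 1 + |C₀| with hC₁
  have hC : (1 : ℝ) ≤ C₁ := le_add_of_nonneg_right (abs_nonneg _)
  set K := 8 * (10000000 * (1 + (G : ℝ) * C₀ ^ 4)) * ((G + 1) * (momC C₁ + 3 * C₁ ^ 2)) with hK
  have hK0 : 0 ≤ K := by
    have := momC_nonneg C₁
    positivity
  refine ⟨C₀ ^ 2 + 1 / 2 + (K + 1) / 2, fun N L P hN hlam hν x hx B hB => ?_⟩
  obtain ⟨ω₀⟩ := nonempty_of_isProbabilityMeasure B.law
  set w := B.lw ω₀ with hw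
  have hham : ∀ z : Dz G L B, P.ham (scale N) x B z = hU P x w z.1 z.2.1 := fun z =>
    funext fun σ => by simp only [Sys.ham, hU, hw, hB z.2.2 ω₀ σ]
  have hlam' : ∀ i, |P.lam i| ≤ C₁ := fun i => (hlam i).trans (by
    linarith [le_abs_self C₀])
  have hint := integrable_logZ P (scale N) x B
  simp only [hham] at hint
  set m := ∫ U, fU P x w U ∂orthHaar N with hm
  have hfree : P.free (scale N) x B = m := by
    simp only [Sys.free, hham]
    rw [dzLaw, integral_prod _ hint, hm]
    refine integral_congr_ae (ae_of_all _ fun U => ?_)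
    dsimp only
    rw [integral_fun_fst (fun J => logZ (hU P x w U J))]
    simp [fU]
  set R := (N : ℝ) * (1 + Real.log N) with hR
  have hR0 : 0 < R := mul_pos (by exact_mod_cast hN) (by linarith [Real.log_natCast_nonneg N])
  have hq : 0 < Real.sqrt R := Real.sqrt_pos.2 hR0
  have hs : 0 ≤ scale N := Real.rpow_nonneg N.cast_nonneg _
  have hc := continuous_fU P x w
  have i1 : Integrable (fun U => (fU P x w U - m) ^ 2) (orthHaar N) :=
    integrable_cont ((hc.sub continuous_const).pow 2)
  have i1' : Integrable (fun U => |fU P x w U - m|) (orthHaar N) :=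
    integrable_cont (hc.sub continuous_const).abs
  have hU2 : ∫ U, |fU P x w U - m| ∂orthHaar N ≤ (K + 1) / 2 * Real.sqrt R := by
    refine (integral_mono i1' ((i1.div_const _).add (integrable_const _))
      fun U => abs_le_quad hq _).trans ?_
    simp only [Pi.add_apply]
    rw [integral_add (i1.div_const _) (integrable_const _), integral_div, integral_const,
      probReal_univ, one_smul]
    refine (add_le_add (div_le_div_of_nonneg_right
      (fU_variance_le P hN hν hlam' hC x hx w) (by positivity)) le_rfl).trans (le_of_eq ?_)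
    rw [← hR, ← hK]
    field_simp
    rw [Real.sq_sqrt hR0.le]
    ring
  have hdev : P.dev (scale N) x B ≤
      (C₀ ^ 2 + 1 / 2) * scale N + ∫ U, |fU P x w U - m| ∂orthHaar N := by
    simp only [Sys.dev, hham, hfree]
    have hz : Integrable (fun z : Dz G L B => |logZ (hU P x w z.1 z.2.1) - m|) (dzLaw G L B) :=
      (hint.sub (integrable_const m)).abs
    rw [dzLaw] at hz ⊢
    rw [integral_prod _ hz]
    refine (integral_mono hz.integral_prod_left
      ((integrable_const ((C₀ ^ 2 + 1 / 2) * scale N)).add i1') fun U => ?_).trans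
      (le_of_eq ?_)
    · rw [integral_fun_fst (fun J => |logZ (hU P x w U J) - m|), probReal_univ, one_smul]
      have hJ := (integrable_logZ_hU P x w U).sub (integrable_const (fU P x w U))
      refine (integral_mono
        ((integrable_logZ_hU P x w U).sub (integrable_const m)).abs
        (hJ.abs.add (integrable_const |fU P x w U - m|))
        fun J => abs_sub_le _ (fU P x w U) _).trans ?_
      simp only [Pi.add_apply]
      rw [integral_add hJ.abs (integrable_const _), integral_const, probReal_univ, one_smul]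
      exact add_le_add (inner_dev_le P hN hν x hx w U) le_rfl
    · simp only [Pi.add_apply]
      rw [integral_add (integrable_const _) i1', integral_const, probReal_univ, one_smul]
  refine (hdev.trans (add_le_add le_rfl hU2)).trans ?_
  rw [devRate, ← hR]
  nlinarith [mul_nonneg (sq_nonneg C₀) hq.le, mul_nonneg hK0 hs, sq_nonneg C₀]

/-- Concentration over every fixed weight. -/
theorem pointDev : SlotDev.PointDevStmt := fun G C₀ => by
  obtain ⟨C, hC⟩ := devFixed G C₀
  exact ⟨C, fun N L P hN hlam hν x hx w =>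
    hC N L P hN hlam hν x hx (SlotDev.pointBase w) fun _ _ _ => rfl⟩

/-- Concentration of the free energy of perturbed systems over the uniform base. -/
theorem dev : DevStmt := fun G C₀ => by
  obtain ⟨C, hC⟩ := devFixed G C₀
  exact ⟨C, fun N L P hN hlam hν x hx => hC N L P hN hlam hν x hx (unifBase N) fun _ _ _ => rfl⟩

end Vale.Agent.P166.Haar2
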