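import Vale.Agent.P166.Haar2.Dev.Cov
import Vale.Agent.P157.Parisi.Perturb.Identity

/-!
The change of the mean free energy over fixed weights in one step of the chain.
-/

noncomputable section

open MeasureTheory ProbabilityTheory Matrix
open scoped BigOperators

namespace Vale.Agent.P166.Haar2.M6

open Vale.Agent.P157 (gam)
open Vale.Agent.P157.Parisi (Cube scale)
open Vale.Agent.P168.Limit (gw logZ gav rav sum_gw gw_nonneg gw_le_one)
open Vale.Agent.P168.Limit.SelfAvg (gav_le_logZ_sub' field measurable_field integrable_logZ_field)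

variable {N G L : ℕ}

/-- The energy over fixed weights. -/
def hU (P : Sys N G) (x : Fin L → ℝ) (w : Cube N → ℝ) (U : OG N) (J : PIdx G N L → ℝ) :
    Cube N → ℝ := fun σ => w σ + P.ham0 (scale N) x U J σ

lemma hU_eq (P : Sys N G) (x : Fin L → ℝ) (w : Cube N → ℝ) (U : OG N) (J : PIdx G N L → ℝ) :
    hU P x w U J = fun σ => (w σ + 1 / 2 * en P.lam U σ) + field (phi P x U) J σ := by
  funext σ
  simp only [hU, Sys.ham0, Sys.pert, field, phi, en_eq, rot, add_assoc]
  congr 2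
  exact Finset.sum_congr rfl fun c _ => by ring

/-- The mean free energy at a rotation. -/
def fU (P : Sys N G) (x : Fin L → ℝ) (w : Cube N → ℝ) (U : OG N) : ℝ :=
  ∫ J, logZ (hU P x w U J) ∂gam (PIdx G N L)

lemma measurable_hU (P : Sys N G) (x : Fin L → ℝ) (w : Cube N → ℝ) (σ : Cube N) :
    Measurable fun q : OG N × (PIdx G N L → ℝ) => hU P x w q.1 q.2 σ :=
  (measurable_ham0 P (scale N) x σ).const_add (w σ)

lemma integrable_logZ_hU (P : Sys N G) (x : Fin L → ℝ) (w : Cube N → ℝ) (U : OG N) :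
    Integrable (fun J => logZ (hU P x w U J)) (gam (PIdx G N L)) := by
  simp only [hU_eq]
  exact integrable_logZ_field _ _

/-- The weight of a pair of configurations: two replicas and the diagonal. -/
def qH {X : Type*} [Fintype X] [DecidableEq X] (H : X → ℝ) (σ τ : X) : ℝ :=
  gw H σ * (gw H τ + if σ = τ then 1 else 0)

lemma qH_mem {X : Type*} [Fintype X] [Nonempty X] [DecidableEq X] (H : X → ℝ) (σ τ : X) :
    0 ≤ qH H σ τ ∧ qH H σ τ ≤ 2 := by
  have h1 := gw_nonneg H σ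
  have h2 := gw_le_one H σ
  have h3 := gw_nonneg H τ
  have h4 := gw_le_one H τ
  unfold qH
  constructor <;> split_ifs <;> nlinarith

/-- Its mean over the perturbation. -/
def qU (P : Sys N G) (x : Fin L → ℝ) (w : Cube N → ℝ) (U : OG N) (σ τ : Cube N) : ℝ :=
  ∫ J, qH (hU P x w U J) σ τ ∂gam (PIdx G N L)

lemma measurable_gw_hU (P : Sys N G) (x : Fin L → ℝ) (w : Cube N → ℝ) (σ : Cube N) :
    Measurable fun q : OG N × (PIdx G N L → ℝ) => gw (hU P x w q.1 q.2) σ :=
  (measurable_hU P x w σ).exp.div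
    (Finset.measurable_sum _ fun τ _ => (measurable_hU P x w τ).exp)

lemma measurable_qH_hU (P : Sys N G) (x : Fin L → ℝ) (w : Cube N → ℝ) (σ τ : Cube N) :
    Measurable fun q : OG N × (PIdx G N L → ℝ) => qH (hU P x w q.1 q.2) σ τ :=
  (measurable_gw_hU P x w σ).mul ((measurable_gw_hU P x w τ).add_const _)

lemma measurable_qU (P : Sys N G) (x : Fin L → ℝ) (w : Cube N → ℝ) (σ τ : Cube N) :
    Measurable fun U => qU P x w U σ τ :=
  (measurable_qH_hU P x w σ τ).stronglyMeasurable.integral_prod_right'.measurable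

lemma integrable_qH_hU (P : Sys N G) (x : Fin L → ℝ) (w : Cube N → ℝ) (U : OG N) (σ τ : Cube N) :
    Integrable (fun J => qH (hU P x w U J) σ τ) (gam (PIdx G N L)) :=
  Integrable.of_bound
    ((measurable_qH_hU P x w σ τ).comp measurable_prodMk_left).aestronglyMeasurable 2
    (ae_of_all _ fun J => by
      rw [Real.norm_eq_abs, abs_of_nonneg (qH_mem _ σ τ).1]
      exact (qH_mem _ σ τ).2)

lemma qU_mem (P : Sys N G) (x : Fin L → ℝ) (w : Cube N → ℝ) (U : OG N) (σ τ : Cube N) :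
    0 ≤ qU P x w U σ τ ∧ qU P x w U σ τ ≤ 2 := by
  refine ⟨integral_nonneg fun J => (qH_mem _ σ τ).1, ?_⟩
  refine (integral_mono (integrable_qH_hU P x w U σ τ) (integrable_const 2)
    fun J => (qH_mem _ σ τ).2).trans (by simp)

lemma sum_qH {X : Type*} [Fintype X] [Nonempty X] [DecidableEq X] (H : X → ℝ) (T : X → X → ℝ) :
    ∑ σ, ∑ τ, qH H σ τ * T σ τ =
      (∑ σ, ∑ τ, gw H σ * gw H τ * T σ τ) + ∑ σ, gw H σ * T σ σ := by
  simp only [qH, mul_add, add_mul, Finset.sum_add_distrib, mul_ite, mul_one, mul_zero, ite_mul,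
    zero_mul, Finset.sum_ite_eq, Finset.mem_univ, if_true]

lemma sum_qU (P : Sys N G) (x : Fin L → ℝ) (w : Cube N → ℝ) (U : OG N) :
    ∑ σ, ∑ τ, qU P x w U σ τ = 2 := by
  unfold qU
  simp only [← integral_finsetSum _ fun τ _ => integrable_qH_hU P x w U _ τ]
  rw [← integral_finsetSum _ fun σ _ => integrable_finsetSum _ fun τ _ =>
    integrable_qH_hU P x w U σ τ]
  have e : ∀ J, ∑ σ, ∑ τ, qH (hU P x w U J) σ τ = 2 := fun J => by
    have h := sum_qH (hU P x w U J) fun _ _ => (1 : ℝ)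
    simp only [mul_one, ← Finset.mul_sum, sum_gw] at h
    rw [h]; norm_num
  simp [e]

lemma sq_wsum_le {α : Type*} [Fintype α] (p f : α → ℝ) (hp : ∀ a, 0 ≤ p a) (h2 : ∑ a, p a = 2) :
    (∑ a, p a * f a) ^ 2 ≤ 2 * ∑ a, p a * f a ^ 2 := by
  set m := (∑ a, p a * f a) / 2 with hm
  have h : 0 ≤ ∑ a, p a * (f a - m) ^ 2 :=
    Finset.sum_nonneg fun a _ => mul_nonneg (hp a) (sq_nonneg _)
  have e : ∑ a, p a * (f a - m) ^ 2 =
      (∑ a, p a * f a ^ 2) - 2 * m * (∑ a, p a * f a) + m ^ 2 * ∑ a, p a := by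
    rw [Finset.mul_sum, Finset.mul_sum, ← Finset.sum_sub_distrib, ← Finset.sum_add_distrib]
    exact Finset.sum_congr rfl fun a _ => by ring
  rw [e, h2, hm] at h
  nlinarith

lemma rav_one {X : Type*} [Fintype X] (H : X → ℝ) (F : (Fin 1 → X) → ℝ) :
    rav 1 H F = ∑ σ, gw H σ * F ![σ] := by
  unfold rav
  refine Fintype.sum_equiv (Equiv.funUnique (Fin 1) X) _ _ fun v => ?_
  have e : (![v 0] : Fin 1 → X) = v := funext fun i => by fin_cases i; rfl
  simp [e]

lemma rav_two {X : Type*} [Fintype X] (H : X → ℝ) (F : (Fin 2 → X) → ℝ) :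
    rav (1 + 1) H F = ∑ σ, ∑ τ, gw H σ * gw H τ * F ![σ, τ] := by
  unfold rav
  rw [← Fintype.sum_prod_type']
  refine Fintype.sum_equiv (finTwoArrowEquiv X) _ _ fun v => ?_
  have e : (![v 0, v 1] : Fin 2 → X) = v := funext fun i => by fin_cases i <;> rfl
  simp [e, Fin.prod_univ_two]

lemma ibp_sum {X ι : Type*} [Fintype X] [Inhabited X] [Fintype ι] [DecidableEq ι]
    (H : X → ℝ) (φ d : X → ι → ℝ) :
    ∫ z, gav (fun y => H y + field φ z y) (field d z) ∂gam ι =
      ∫ z, ((∑ σ, gw (fun y => H y + field φ z y) σ * ∑ c, d σ c * φ σ c) -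
        ∑ σ, ∑ τ, gw (fun y => H y + field φ z y) σ * gw (fun y => H y + field φ z y) τ *
          ∑ c, d σ c * φ τ c) ∂gam ι := by
  have hg : ∀ y, Measurable fun z => gw (fun y => H y + field φ z y) y := fun y =>
    ((measurable_field φ y).const_add _).exp.div
      (Finset.measurable_sum _ fun w _ => ((measurable_field φ w).const_add _).exp)
  have hm : ∀ (n : ℕ) (F : (Fin n → X) → ℝ),
      Measurable fun z => rav n (fun y => H y + field φ z y) F := fun n F =>
    Finset.measurable_sum _ fun _ _ => (Finset.measurable_prod _ fun _ _ => hg _).mul_const _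
  have hb : ∀ (n : ℕ) (F : (Fin n → X) → ℝ) z,
      |rav n (fun y => H y + field φ z y) F| ≤ ∑ v, |F v| := fun n F z =>
    Vale.Agent.P168.Limit.abs_rav_le n _ F
      (Vale.Agent.P157.Parisi.Perturb.abs_le_absSum F)
  have hi : ∀ (n : ℕ) (F : (Fin n → X) → ℝ),
      Integrable (fun z => rav n (fun y => H y + field φ z y) F) (gam ι) := fun n F =>
    Integrable.of_bound (hm n F).aestronglyMeasurable _ (ae_of_all _ fun z => hb n F z)
  have hic : ∀ (c : ι) (F : (Fin 1 → X) → ℝ),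
      Integrable (fun z => z c * rav 1 (fun y => H y + field φ z y) F) (gam ι) := fun c F =>
    (Vale.Agent.P168.Toolkit.integrable_eval_gaussPi c).mul_bdd (hm 1 F).aestronglyMeasurable
      (ae_of_all _ fun z => hb 1 F z)
  have e : ∀ z, gav (fun y => H y + field φ z y) (field d z) =
      ∑ c, z c * rav 1 (fun y => H y + field φ z y) (fun v => d (v 0) c) := fun z => by
    simp only [rav_one, gav, field, Finset.mul_sum, Matrix.cons_val_zero]
    rw [Finset.sum_comm]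
    exact Finset.sum_congr rfl fun c _ => Finset.sum_congr rfl fun σ _ => by ring
  simp only [e]
  rw [integral_finsetSum _ fun c _ => hic c _]
  rw [Finset.sum_congr rfl fun c _ =>
    Vale.Agent.P157.Parisi.Perturb.gauss_rav_ibp H φ c 1 fun v => d (v 0) c]
  refine (integral_finsetSum _ fun c _ => ?_).symm.trans ?_
  · exact (integrable_finsetSum _ fun q _ => hi 1 _).sub ((hi 2 _).const_mul _)
  refine integral_congr_ae (ae_of_all _ fun z => ?_)
  simp only [Fin.sum_univ_one, rav_one, rav_two, Nat.cast_one, one_mul, Finset.sum_sub_distrib,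
    Fin.last, Matrix.cons_val_zero, Fin.castSucc_zero, Finset.mul_sum]
  congr 1
  · exact Finset.sum_comm
  · rw [Finset.sum_comm]
    refine Finset.sum_congr rfl fun σ _ => ?_
    rw [Finset.sum_comm]
    rfl

/-- The bound of the change of the integrand in one step, in one pair of configurations. -/
def moveBd (P : Sys N G) (C₀ : ℝ) (U M : OG N) (σ τ : Cube N) : ℝ :=
  1 / 2 * |en P.lam U σ - en P.lam (U * M) σ| +
    C₀ ^ 2 * ∑ g, |(act M (spin σ) - spin σ) ⬝ᵥ Jv (ind P g) U (spin τ)|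

lemma tangent_pt {X : Type*} [Fintype X] [Nonempty X] (H H' e₀ d : X → ℝ)
    (h : ∀ σ, H σ - H' σ = e₀ σ + d σ) : logZ H - logZ H' ≤ gav H e₀ + gav H d := by
  have h1 := gav_le_logZ_sub' H (fun σ => H' σ - H σ)
  have e : (fun σ => H σ + (H' σ - H σ)) = H' := funext fun σ => by ring
  rw [e] at h1
  have e2 : gav H e₀ + gav H d = -gav H (fun σ => H' σ - H σ) := by
    rw [← Vale.Agent.P168.Limit.gav_add]
    simp only [gav, ← Finset.sum_neg_distrib]
    refine Finset.sum_congr rfl fun σ _ => ?_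
    rw [← h]; ring
  linarith

lemma pair_bound {X : Type*} [Fintype X] [Nonempty X] [DecidableEq X] (H e₀ : X → ℝ)
    (K D : X → X → ℝ) (h1 : ∀ σ, e₀ σ + K σ σ ≤ D σ σ) (h2 : ∀ σ τ, -K σ τ ≤ D σ τ) :
    gav H e₀ + ((∑ σ, gw H σ * K σ σ) - ∑ σ, ∑ τ, gw H σ * gw H τ * K σ τ) ≤
      ∑ σ, ∑ τ, qH H σ τ * D σ τ := by
  rw [sum_qH]
  have a1 : gav H e₀ + ∑ σ, gw H σ * K σ σ ≤ ∑ σ, gw H σ * D σ σ := by
    rw [gav, ← Finset.sum_add_distrib]
    refine Finset.sum_le_sum fun σ _ => ?_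
    rw [← mul_add]
    exact mul_le_mul_of_nonneg_left (h1 σ) (gw_nonneg _ σ)
  have a2 : -(∑ σ, ∑ τ, gw H σ * gw H τ * K σ τ) ≤ ∑ σ, ∑ τ, gw H σ * gw H τ * D σ τ := by
    simp only [← Finset.sum_neg_distrib, ← mul_neg]
    exact Finset.sum_le_sum fun σ _ => Finset.sum_le_sum fun τ _ =>
      mul_le_mul_of_nonneg_left (h2 σ τ) (mul_nonneg (gw_nonneg _ σ) (gw_nonneg _ τ))
  linarith

lemma gauss_pair_le {X ι : Type*} [Fintype X] [Inhabited X] [DecidableEq X] [Fintype ι]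
    [DecidableEq ι] (H₀ H₁ : X → ℝ) (φ φ' : X → ι → ℝ) (D : X → X → ℝ)
    (h1 : ∀ σ, (H₀ σ - H₁ σ) + ∑ c, (φ σ c - φ' σ c) * φ σ c ≤ D σ σ)
    (h2 : ∀ σ τ, -∑ c, (φ σ c - φ' σ c) * φ τ c ≤ D σ τ) :
    (∫ z, logZ (fun y => H₀ y + field φ z y) ∂gam ι) -
        ∫ z, logZ (fun y => H₁ y + field φ' z y) ∂gam ι ≤
      ∑ σ, ∑ τ, (∫ z, qH (fun y => H₀ y + field φ z y) σ τ ∂gam ι) * D σ τ := by
  set d : X → ι → ℝ := fun σ c => φ σ c - φ' σ c with hd
  have hg : ∀ y, Measurable fun z => gw (fun y => H₀ y + field φ z y) y := fun y =>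
    ((measurable_field φ y).const_add _).exp.div
      (Finset.measurable_sum _ fun w _ => ((measurable_field φ w).const_add _).exp)
  have hgb : ∀ y, ∀ᵐ z ∂gam ι, ‖gw (fun y => H₀ y + field φ z y) y‖ ≤ 1 := fun y =>
    ae_of_all _ fun z => by
      rw [Real.norm_eq_abs, abs_of_nonneg (gw_nonneg _ y)]; exact gw_le_one _ y
  have hgi : ∀ y, Integrable (fun z => gw (fun y => H₀ y + field φ z y) y) (gam ι) := fun y =>
    Integrable.of_bound (hg y).aestronglyMeasurable 1 (hgb y)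
  have i1 : Integrable (fun z => gav (fun y => H₀ y + field φ z y) fun σ => H₀ σ - H₁ σ) (gam ι) :=
    integrable_finsetSum _ fun σ _ => (hgi σ).mul_const _
  have i2 : Integrable (fun z => gav (fun y => H₀ y + field φ z y) (field d z)) (gam ι) :=
    integrable_finsetSum _ fun σ _ => by
      refine Integrable.bdd_mul (c := 1) ?_ (hg σ).aestronglyMeasurable (hgb σ)
      exact integrable_finsetSum _ fun c _ =>
        (Vale.Agent.P168.Toolkit.integrable_eval_gaussPi c).const_mul _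
  have ik : Integrable (fun z =>
      (∑ σ, gw (fun y => H₀ y + field φ z y) σ * ∑ c, d σ c * φ σ c) -
        ∑ σ, ∑ τ, gw (fun y => H₀ y + field φ z y) σ * gw (fun y => H₀ y + field φ z y) τ *
          ∑ c, d σ c * φ τ c) (gam ι) :=
    (integrable_finsetSum _ fun σ _ => (hgi σ).mul_const _).sub
      (integrable_finsetSum _ fun σ _ => integrable_finsetSum _ fun τ _ =>
        ((hgi σ).mul_bdd (c := 1) (hg τ).aestronglyMeasurable (hgb τ)).mul_const _)
  have hqi : ∀ σ τ, Integrable (fun z => qH (fun y => H₀ y + field φ z y) σ τ) (gam ι) :=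
    fun σ τ => Integrable.of_bound ((hg σ).mul ((hg τ).add_const _)).aestronglyMeasurable 2
      (ae_of_all _ fun z => by
        rw [Real.norm_eq_abs, abs_of_nonneg (qH_mem _ σ τ).1]; exact (qH_mem _ σ τ).2)
  have j1 := integrable_logZ_field H₀ φ
  have j2 := integrable_logZ_field H₁ φ'
  rw [← integral_sub j1 j2]
  refine (integral_mono (j1.sub j2) (i1.add i2) fun z => tangent_pt _ _ _ _ fun σ => ?_).trans ?_
  · simp only [field, hd, sub_mul, Finset.sum_sub_distrib]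
    ring
  simp only [Pi.add_apply]
  rw [integral_add i1 i2, ibp_sum H₀ φ d, ← integral_add i1 ik]
  refine (integral_mono (i1.add ik)
    (integrable_finsetSum _ fun σ _ => integrable_finsetSum _ fun τ _ => (hqi σ τ).mul_const _)
    fun z => pair_bound _ _ _ D h1 h2).trans_eq ?_
  rw [integral_finsetSum _ fun σ _ => integrable_finsetSum _ fun τ _ => (hqi σ τ).mul_const _]
  refine Finset.sum_congr rfl fun σ _ => ?_
  rw [integral_finsetSum _ fun τ _ => (hqi σ τ).mul_const _]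
  exact Finset.sum_congr rfl fun τ _ => integral_mul_const _ _

lemma fU_sub_le (P : Sys N G) (hN : 0 < N) (hν : (N : ℝ) ≤ P.ν) {C₀ : ℝ} (x : Fin L → ℝ)
    (hx : ∀ i, |x i| ≤ C₀) (w : Cube N → ℝ) (U M : OG N) :
    fU P x w U - fU P x w (U * M) ≤
      ∑ σ, ∑ τ, qU P x w U σ τ * moveBd P C₀ U M σ τ := by
  simp only [fU, qU, hU_eq]
  have hK := cov_diff_le P hN hν x hx U M
  refine gauss_pair_le _ _ _ _ _ (fun σ => ?_) fun σ τ => ?_
  · simp only [moveBd]
    linarith [le_abs_self (en P.lam U σ - en P.lam (U * M) σ), (abs_le.1 (hK σ σ)).2]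
  · simp only [moveBd]
    linarith [(abs_le.1 (hK σ τ)).1, abs_nonneg (en P.lam U σ - en P.lam (U * M) σ)]

/-- The dominating quantity of one step in one pair of configurations. -/
def tot (P : Sys N G) (C : ℝ) (k : Fin N) (U g : OG N) (σ τ : Cube N) : ℝ :=
  dom2 C k P.lam U g σ σ + ∑ b, dom2 C k (ind P b) U g σ τ

/-- The dominating quantity of one step. -/
def bdU (P : Sys N G) (x : Fin L → ℝ) (w : Cube N → ℝ) (C : ℝ) (k : Fin N) (U g : OG N) : ℝ :=
  ∑ σ, ∑ τ, qU P x w U σ τ * tot P C k U g σ τ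

lemma moveBd_sq_le (P : Sys N G) {C₀ C : ℝ} (hlam : ∀ i, |P.lam i| ≤ C) (hC : 1 ≤ C)
    (k : Fin N) (U g M : OG N) (hM : M = house k g⁻¹ ∨ M = (house k g⁻¹)⁻¹) (σ τ : Cube N) :
    moveBd P C₀ U M σ τ ^ 2 ≤ 10000000 * (1 + G * C₀ ^ 4) * tot P C k U g σ τ := by
  set a := en P.lam U σ - en P.lam (U * M) σ with ha
  set Q : Fin G → ℝ := fun b => |(act M (spin σ) - spin σ) ⬝ᵥ Jv (ind P b) U (spin τ)|
  have h1 : a ^ 2 ≤ 10000000 * dom2 C k P.lam U g σ σ := by
    have h := delta_sq_le hlam k U g σ M hM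
    rw [dom_eq, ← en_mul_right] at h
    rw [ha]
    linarith [show (en P.lam U σ - en P.lam (U * M) σ) ^ 2 =
      (en P.lam (U * M) σ - en P.lam U σ) ^ 2 by ring]
  have h2 : (∑ b, Q b) ^ 2 ≤ G * (3380 * ∑ b, dom2 C k (ind P b) U g σ τ) := by
    refine sq_sum_le_card_mul_sum_sq.trans ?_
    rw [Finset.card_univ, Fintype.card_fin, Finset.mul_sum (a := (3380 : ℝ))]
    refine mul_le_mul_of_nonneg_left (Finset.sum_le_sum fun b _ => ?_) (Nat.cast_nonneg _)
    simp only [Q, sq_abs]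
    exact move_dot_sq_le (fun i => (abs_ind_le P b i).trans hC) k U g σ τ M hM
  have d1 := dom2_nonneg C k P.lam U g σ σ
  have d2 : 0 ≤ ∑ b, dom2 C k (ind P b) U g σ τ :=
    Finset.sum_nonneg fun b _ => dom2_nonneg C k (ind P b) U g σ τ
  have h4 := mul_le_mul_of_nonneg_left h2 (by positivity : (0 : ℝ) ≤ C₀ ^ 4)
  show (1 / 2 * |a| + C₀ ^ 2 * ∑ b, Q b) ^ 2 ≤ _
  unfold tot
  have hG : (0 : ℝ) ≤ G * C₀ ^ 4 := by positivity
  nlinarith [sq_nonneg (1 / 2 * |a| - C₀ ^ 2 * ∑ b, Q b), sq_abs a, mul_nonneg hG d1,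
    mul_nonneg hG d2]

lemma wsum_sq_le (P : Sys N G) (x : Fin L → ℝ) (w : Cube N → ℝ) {C₀ C : ℝ}
    (hlam : ∀ i, |P.lam i| ≤ C) (hC : 1 ≤ C) (k : Fin N) (U g M : OG N)
    (hM : M = house k g⁻¹ ∨ M = (house k g⁻¹)⁻¹) :
    (∑ σ, ∑ τ, qU P x w U σ τ * moveBd P C₀ U M σ τ) ^ 2 ≤
      2 * (10000000 * (1 + G * C₀ ^ 4)) * bdU P x w C k U g := by
  have h := sq_wsum_le (fun p : Cube N × Cube N => qU P x w U p.1 p.2)
    (fun p => moveBd P C₀ U M p.1 p.2) (fun p => (qU_mem P x w U p.1 p.2).1)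
    (by rw [Fintype.sum_prod_type]; exact sum_qU P x w U)
  simp only [Fintype.sum_prod_type] at h
  refine h.trans ?_
  rw [bdU, mul_assoc 2]
  refine mul_le_mul_of_nonneg_left ?_ zero_le_two
  simp only [Finset.mul_sum]
  refine Finset.sum_le_sum fun σ _ => Finset.sum_le_sum fun τ _ => ?_
  refine (mul_le_mul_of_nonneg_left (moveBd_sq_le P hlam hC k U g M hM σ τ)
    (qU_mem P x w U σ τ).1).trans (le_of_eq ?_)
  ring

/-- One step moves the mean free energy by at most the dominating quantity at its two ends. -/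
theorem fU_diff_sq_le (P : Sys N G) (hN : 0 < N) (hν : (N : ℝ) ≤ P.ν) {C₀ C : ℝ}
    (hlam : ∀ i, |P.lam i| ≤ C) (hC : 1 ≤ C) (x : Fin L → ℝ) (hx : ∀ i, |x i| ≤ C₀)
    (w : Cube N → ℝ) (k : Fin N) (U g : OG N) :
    (fU P x w U - fU P x w (U * step k g)) ^ 2 ≤
      2 * (10000000 * (1 + G * C₀ ^ 4)) *
        (bdU P x w C k U g + bdU P x w C k (U * step k g) g) := by
  set V := U * step k g with hV
  have hU' : U = V * house k g⁻¹ := by simp [hV, step]
  have a1 := fU_sub_le P hN hν x hx w U (step k g)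
  rw [← hV] at a1
  have a2 := fU_sub_le P hN hν x hx w V (house k g⁻¹)
  rw [← hU'] at a2
  have b1 := wsum_sq_le (C₀ := C₀) P x w hlam hC k U g (step k g) (Or.inr rfl)
  have b2 := wsum_sq_le (C₀ := C₀) P x w hlam hC k V g (house k g⁻¹) (Or.inl rfl)
  set A := ∑ σ, ∑ τ, qU P x w U σ τ * moveBd P C₀ U (step k g) σ τ
  set A' := ∑ σ, ∑ τ, qU P x w V σ τ * moveBd P C₀ V (house k g⁻¹) σ τ
  rcases le_total (fU P x w V) (fU P x w U) with h | h
  · nlinarith [pow_le_pow_left₀ (sub_nonneg.2 h) a1 2, sq_nonneg A']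
  · nlinarith [pow_le_pow_left₀ (sub_nonneg.2 h) a2 2, sq_nonneg A]

end Vale.Agent.P166.Haar2.M6
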